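import Crest.Agent.X212.Kc37.Band

/-!
# X212 / Kc37 (helper37): KH-COUNT
-/

set_option autoImplicit false
set_option linter.unusedSectionVars false

open Finset Classical

noncomputable section

namespace Crest.Agent.X212.Kc37

open Hp13 Hk
open Alg36 (Om Esc)

variable {P Q : Type} [PartialOrder P] [Fintype P] [PartialOrder Q] [Fintype Q] {k : ℕ}

theorem Tw2.add {S F ρ : Set Q} (h : Tw2 S F ρ) {a b c : Q} (ha : a ∈ En F ρ) (hb : b ∈ En F ρ)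
    (hc : c ∈ En F ρ) : (if Rch (S ∩ F) a c then 0 else 1 : ZMod 2) =
      (if Rch (S ∩ F) a b then 0 else 1) + if Rch (S ∩ F) b c then 0 else 1 := by
  have := h a ha b hb c hc
  by_cases h1 : Rch (S ∩ F) a b <;> by_cases h2 : Rch (S ∩ F) b c
  · simp [h1, h2, h1.trans h2]
  · simp [h1, h2, mt h1.symm.trans h2]
  · simp [h1, h2, mt (fun r : Rch (S ∩ F) a c => r.trans h2.symm) h1]
  · rw [if_neg h1, if_neg h2, if_pos ((this.resolve_left h1).resolve_right h2)]; decide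

namespace Dt

variable {f : Q → Ch P} {Y : Set Q} {U G V : Fin k → Set Q} (h : Dt f Y U G V) {i : Fin k}

local notation "F" => ⋃ j, G j

include h

/-- a member is not parallel to itself -/
theorem not_one (hp : Par f U G i) (hj : ∀ σ ρ, Ad f U G i σ ρ → ∀ x ∈ En F ρ,
    x ∈ G i → ∀ x' ∈ En F ρ, ¬ Rch (sb f σ ∩ F) x x' → x' ∈ G i) : False := by
  obtain ⟨x0, a1, a2⟩ := h.ne i
  have a3 : x0 ∈ G i ∩ Sk f 3 := ⟨a1, Nat.le_succ_of_le a2⟩
  have : Nonempty Q := ⟨x0⟩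
  have en : ∀ σ ρ, Ad f U G i σ ρ → En F ρ ⊆ G i := fun σ ρ c v hv =>
    let ⟨x, x1, x2⟩ := c.ne
    (Classical.em _).elim (h.rchG x2) (hj σ ρ c x x1 x2 v hv)
  let C : Q → Set Q := fun y => cmp (sb f (f y) \ F) y
  let r : Q → Q := fun x => if x ∈ F then x else epsilon (· ∈ En F (C x))
  let St : Q → Prop := fun y => y ∉ F ∧ y ∈ U i ∧ (En F (C y) ∩ G i).Nonempty
  let m : Q → Q → ZMod 2 := fun x y =>
    if St y then if Rch (sb f (f y) ∩ F) (r x) (r y) then 0 else 1 else 0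
  have cC : ∀ y, y ∉ F → IsCmp (sb f (f y) \ F) (C y) ∧ y ∈ C y := fun y k =>
    ⟨isCmp_cmp ⟨le_refl (f y), k⟩, mem_cmp_self ⟨le_refl (f y), k⟩⟩
  have sC : ∀ σ ρ, IsCmp (sb f σ \ F) ρ → ∀ y ∈ ρ, C y ⊆ ρ := fun σ ρ c y hy =>
    sub_cmp c (cC y (c.sub hy).2).1.conn (fun _ j => ⟨le_trans (α := Ch P) j.1.1 (c.sub hy).1,
      j.1.2⟩) (cC y (c.sub hy).2).2 hy
  have r1 : ∀ σ ρ, Ad f U G i σ ρ → ∀ y ∈ ρ, r y ∈ En F (C y) := fun σ ρ c y hy => by
    have k := (c.reg.sub hy).2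
    simp only [r, if_neg k]
    exact epsilon_spec (h.ex_en (cC y k).1 fun v hv => (hp σ ρ c).1 v (sC σ ρ c.reg y hy hv))
  have r2 : ∀ σ ρ, Ad f U G i σ ρ → ∀ y ∈ ρ ∪ En F ρ, r y ∈ En F ρ ∧ r y ∈ sb f (f y) ∩ F :=
    fun σ ρ c y hy => hy.elim (fun k => ⟨en_mono (sC σ ρ c.reg y k) (r1 σ ρ c y k),
      h.enS (cC y (c.reg.sub k).2).1 (r1 σ ρ c y k)⟩) fun k => by
        simp only [r, if_pos k.1]; exact ⟨k, le_refl (f y), k.1⟩
  have lo : ∀ σ ρ, Ad f U G i σ ρ → ∀ y ∈ ρ ∪ En F ρ, ∀ x, x ≤ y → x ∈ ρ ∪ En F ρ :=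
    fun σ ρ c y hy x l => hy.elim (fun k => (Classical.em (x ∈ F)).symm.imp (fun j => c.reg.clopen k
      ⟨h.lowS σ l (c.reg.sub k).1, j⟩ (Or.inr l)) fun j => ⟨j, y, k, l⟩)
      fun k => Or.inr (en_low h.lowF l k)
  have val : ∀ σ ρ, Ad f U G i σ ρ → ∀ y ∈ ρ ∪ En F ρ, ∀ x, x ≤ y →
      m x y = if Rch (sb f σ ∩ F) (r x) (r y) then 0 else 1 := fun σ ρ c y hy x l => by
    rcases hy with k | k
    · have s : St y := ⟨(c.reg.sub k).2, c.sub k, r y, r1 σ ρ c y k,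
        en σ ρ c (r2 σ ρ c y (Or.inl k)).1⟩
      have l' : f y ≤ σ := (c.reg.sub k).1
      refine (if_pos s).trans (if_congr ⟨Rch.mono fun _ j => ⟨le_trans (α := Ch P) j.1 l', j.2⟩,
        fun j => ?_⟩ rfl rfl)
      by_cases e : f y = σ
      · rwa [e]
      have b := r2 σ ρ c x (lo σ ρ c y (Or.inl k) x l)
      rw [h.notwo c.card (e := f y) (Nat.le_of_not_lt fun n => e
        (Ch.ext (eq_of_subset_of_card_le l' (c.card.le.trans n)))) (h.enS c.reg b.1)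
        (le_trans (α := Ch P) b.2.1 (h.mono l)) (r2 σ ρ c y (Or.inl k)).2.1 j]
      exact Rch.rfl
    · have k' := en_low h.lowF l k
      rw [if_pos (by
        simp only [r, if_pos k.1, if_pos k'.1]
        exact Rch.of_cm (h.enS c.reg k') (h.enS c.reg k) (Or.inl l))]
      exact if_neg fun j => j.1 k.1
  obtain ⟨g, hg⟩ := h.m2 m (fun x _ y _ w hw l l' => by
    by_cases s : St w
    · obtain ⟨σ, b1, b2⟩ := h.tri w ((h.two i).sub s.2.1) hw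
      have b3 := isCmp_cmp (E := sb f σ \ F) ⟨b1, s.1⟩
      have b4 := mem_cmp_self (E := sb f σ \ F) ⟨b1, s.1⟩
      have c : Ad f U G i σ _ := ⟨b2, b3, h.regU b3 b4 s.2.1,
        s.2.2.mono (Set.inter_subset_inter_left _ (en_mono (sC σ _ b3 w b4)))⟩
      have b5 := lo σ _ c w (Or.inl b4) y l'
      rw [val σ _ c w (Or.inl b4) x (l.trans l'), val σ _ c y b5 x l, val σ _ c w (Or.inl b4) y l']
      exact (hp σ _ c).2.add (r2 σ _ c x (lo σ _ c y b5 x l)).1 (r2 σ _ c y b5).1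
        (r2 σ _ c w (Or.inl b4)).1
    · have s' : ¬ St y := fun j => by
        have n : w ∉ F := fun n => j.1 (h.lowF l' n)
        exact s ⟨n, (h.two i).up l' j.2.1, j.2.2.mono (Set.inter_subset_inter_left _ (en_mono
          (sC _ _ (cC w n).1 y ((cC w n).1.clopen (cC w n).2 ⟨h.mono l', j.1⟩ (Or.inr l')))))⟩
      simp only [m, if_neg s, if_neg s', add_zero])
    fun x y hy => if_neg fun j => hy ((h.two i).sub j.2.1)
  obtain ⟨σ, ρ, c, a5⟩ := h.exAd' a3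
  obtain ⟨x1, a6, a7⟩ := h.other c.card c.reg (hp _ _ c).1 a5
  have e1 := (h.conn i x0 a3 x1 ⟨en σ ρ c a6, h.sk3 c.card c.reg a6⟩).eq (g := g)
    fun a ha b hb l => by
      have := hg a ⟨ha.2, h.subY ha.1⟩ b ⟨hb.2, h.subY hb.1⟩ l
      rw [show m a b = 0 from if_neg fun j => j.1 (memF hb.1)] at this
      exact (sub_eq_zero.1 this.symm).symm
  have mem : ∀ a ∈ ρ ∪ En F ρ, a ∈ Sk f 3 ∩ Y := fun a ha => ha.elim
    (fun k => ⟨(card_le_card (c.reg.sub k).1).trans c.card.le, (h.two i).sub (c.sub k)⟩)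
    fun k => ⟨h.sk3 c.card c.reg k, h.subF k.1⟩
  have e2 := ((h.ctrS c.card c.reg a5).conn x0 (Or.inr a5) x1 (Or.inr a6)).eq
    (g := fun t => g t - if Rch (sb f σ ∩ F) x0 (r t) then 0 else 1) fun a ha b hb l => by
      have := hg a (mem a ha) b (mem b hb) l
      rw [val σ ρ c b hb a l] at this
      rw [(hp σ ρ c).2.add a5 (r2 σ ρ c a ha).1 (r2 σ ρ c b hb).1, this]
      ring
  simp only [r, if_pos a5.1, if_pos a6.1, if_pos (Rch.rfl (x := x0)), if_neg a7, e1,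
    sub_right_inj] at e2
  exact zero_ne_one e2

theorem not_par (i : Fin k) : ¬ Par f U G i := fun hp => by
  obtain ⟨j, hj⟩ := h.label hp
  by_cases e : i = j
  · exact h.not_one hp (e ▸ hj)
  · exact h.not_two hp e hj

theorem count : k ≤ Fintype.card (Ch P) ^ 2 := by
  have : ∀ i, ∃ (σ τ : Ch P) (ρ α : Set Q) (s : Q → Prop) (x y : Q), σ.1.card = 3 ∧
      IsCmp (sb f σ \ F) ρ ∧ Cu (sb f σ) F α s ∧ x ∈ α ∧ x ∈ G i ∧ y ∈ ρ ∧ x ≤ y ∧ s y ∧
      ¬ ((∀ v ∈ ρ, v ∉ Sk f 1) ∧ Tw2 (sb f σ) F ρ) ∧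
      ∀ v ∈ sb f σ, v ∈ Sk f 1 → (s v ↔ f v ≤ τ) := fun i => by
    have := h.not_par i
    unfold Par at this
    push Not at this
    obtain ⟨σ, ρ, c, n⟩ := this
    obtain ⟨x, x1, x2⟩ := c.ne
    have m := h.enS c.reg x1
    have m' := mem_cmp_self m
    obtain ⟨s, d, e⟩ := h.cu (isCmp_cmp m) m' x2
    obtain ⟨-, y, y1, y2⟩ := x1
    obtain ⟨w, w1, w2⟩ := (h.tri3 c.card).vtx d True
    refine ⟨σ, σ.sub (σ.1.filter fun a => ∃ v, f v = Ch.pt a ∧ s v) ⟨(f w).top, mem_filter.2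
      ⟨w1.1.1 (f w).top_mem, w, Sf30.eq_pt w2, w1.2.2 trivial⟩⟩ (filter_subset _ _), ρ, _, s, x, y,
      c.card, c.reg, d, m', x2, y1, y2, (e x m' y (c.reg.sub y1) y2).2 (c.sub y1),
      fun j => n j.1 j.2, fun v v1 v2 => ⟨fun j => (Sf30.eq_pt v2).trans_le (Ch.pt_le.2
        (mem_filter.2 ⟨v1 (f v).top_mem, v, Sf30.eq_pt v2, j⟩)), fun j => ?_⟩⟩
    obtain ⟨-, u, u1, u2⟩ := mem_filter.1 (j (f v).top_mem)
    exact h.vx v v2 u ((Sf30.eq_pt v2).trans u1.symm) ▸ u2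
  choose σ τ ρ α s x y h1 h2 h3 h4 h5 h6 h7 h8 h9 h10 using this
  have := Fintype.card_le_of_injective (fun i => (σ i, τ i)) fun i j e => by_contra fun ne => by
    obtain ⟨e1, e2⟩ := Prod.mk.inj e
    have a2 := h2 j
    have a3 := h3 j
    have a9 := h9 j
    have a10 := h10 j
    rw [← e1] at a2 a3 a9 a10
    exact ((h.tri3 (h1 i)).pair (h3 i) a3 (h4 i) (h4 j) (fun k => ne (h.eqG (h.rchG (h5 i)
      (((h3 i).cmp.conn _ (h4 i) _ k).mono (h3 i).cmp.sub)) (h5 j)))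
      (fun v a b => by rw [h10 i v a b, a10 v a b, e2]) (h2 i) (h6 i) (h7 i) (h8 i) a2 (h6 j) (h7 j)
      (h8 j)).elim (h9 i) a9
  rwa [Fintype.card_fin, Fintype.card_prod, ← sq] at this

end Dt

/-- **COUNT** -/
theorem countStmt (hN : Nf0Stmt) : CountStmt := by
  intro P _ _ Y t f k U G V h n1 n2
  obtain ⟨a1, a2, a3⟩ := hN P Y t f h.amb h.tw
  have b := a3 k U G V h n1
  refine Dt.count (f := f) (Y := f ⁻¹' (Ch.top ⁻¹' Y)) (U := U) (G := G) (V := V)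
    ⟨h.fm, h.tw.mono, (h.amb.up.preimage Ch.top_mono).preimage h.tw.mono,
      ((h.amb.pre (Tw.one P)).pre h.tw).esc, fun σ => (a1 σ).1, fun σ => (a1 σ).2.1,
      fun σ => (a1 σ).2.2.1, fun σ x hx => ?_, fun x hx y e => ?_, fun i => (b i).2.2.2.1,
      fun x hx h3 => ?_, n2, fun i => (b i).1, fun i => (b i).2.2.1, fun i => (b i).2.2.2.2,
      fun m h1 h2 => exOn_mono (a2 m (cocOn_mono h1 Set.inter_subset_left)
        (Flat.exOn fun x _ y hy _ => h2 x y hy.1))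
        (Set.inter_subset_inter_right _ fun _ k => sub_cl k)⟩
  · convert (h.tw.ws_up x {σ}).ctr_iff.2 (Kh11.sctr_min (m := σ) ⟨rfl, hx⟩ fun _ k => k.1.ge)
      using 1
    exact Set.ext fun _ => and_comm
  · obtain ⟨v, h1, -⟩ := (a1 (f x)).2.2.2.2 (le_antisymm hx (card_pos.2 (f x).2.1))
    exact (h1.subset (rfl : f x = f x)).trans (h1.subset e.symm).symm
  · obtain ⟨c, h1, h2⟩ := h.amb.mf.pure (f x) ⟨_, (f x).top_mem, hx⟩
    obtain ⟨u, u1, u2, u3⟩ := exists_subsuperset_card_eq h1 h3 (by omega : 3 ≤ c.1.card)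
    exact ⟨c.sub u ((f x).2.1.mono u1) u2, u1, u3⟩

end Crest.Agent.X212.Kc37
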