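import Crest.Agent.X212.Kc37.Dat

/-!
# X212 / Kc37 (helper37): KH-COUNT, bands of parallel strips
-/

set_option autoImplicit false
set_option linter.unusedSectionVars false

open Finset Classical

noncomputable section

namespace Crest.Agent.X212.Kc37

open Hp13 Hk
open Alg36 (Om Esc)

variable {P Q : Type} [PartialOrder P] [Fintype P] [PartialOrder Q] [Fintype Q] {k : ℕ}

/-- a region of a triangle on the inner side of a member -/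
structure Ad (f : Q → Ch P) (U G : Fin k → Set Q) (i : Fin k) (σ : Ch P) (ρ : Set Q) : Prop where
  card : σ.1.card = 3
  reg : IsCmp (sb f σ \ ⋃ j, G j) ρ
  sub : ρ ⊆ U i
  ne : (En (⋃ j, G j) ρ ∩ G i).Nonempty

/-- all these regions are strips -/
def Par (f : Q → Ch P) (U G : Fin k → Set Q) (i : Fin k) : Prop :=
  ∀ σ ρ, Ad f U G i σ ρ → (∀ v ∈ ρ, v ∉ Sk f 1) ∧ Tw2 (sb f σ) (⋃ j, G j) ρ

/-- a strip between two members -/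
structure Sp (f : Q → Ch P) (U G : Fin k → Set Q) (a b : Fin k) (p : Prop) (W : Set Q) (σ : Ch P)
    (ρ : Set Q) : Prop where
  card : σ.1.card = 3
  reg : IsCmp (sb f σ \ ⋃ j, G j) ρ
  vf : ∀ v ∈ ρ, v ∉ Sk f 1
  sub : ρ ∪ En (⋃ j, G j) ρ ⊆ W
  en : En (⋃ j, G j) ρ ⊆ G a ∪ G b
  one : ∀ c, ∀ x ∈ En (⋃ j, G j) ρ, ∀ y ∈ En (⋃ j, G j) ρ, x ∈ G c → y ∈ G c →
    Rch (sb f σ ∩ ⋃ j, G j) x y
  side : ∀ y ∈ ρ, y ∈ U b ↔ p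

namespace Dt

variable {f : Q → Ch P} {Y : Set Q} {U G V : Fin k → Set Q} (h : Dt f Y U G V)
  {i j : Fin k} {x y w : Q} {σ σ' τ e : Ch P} {α ρ ρ' : Set Q}

local notation "F" => ⋃ j, G j

include h

theorem subU {C : Set Q} (hC : Conn C) (hG : ∀ x ∈ C, x ∉ G i) (hy : y ∈ C) (k : y ∈ U i) :
    C ⊆ U i := fun w hw => (hC y hy w hw).ind k fun a ha _ _ l =>
  ⟨(h.two i).up l, fun j => by_contra fun n => hG a ha ((h.fm.mem i).om ⟨n, _, j, l⟩)⟩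

theorem regU (hρ : IsCmp (sb f τ \ F) ρ) (hy : y ∈ ρ) (k : y ∈ U i) : ρ ⊆ U i :=
  h.subU hρ.conn (fun _ a b => (hρ.sub a).2 (memF b)) hy k

theorem exAd (hx : x ∈ G i) (l : f x ≤ σ) (hσ : σ.1.card = 3) :
    ∃ ρ, Ad f U G i σ ρ ∧ x ∈ En F ρ :=
  let ⟨y, a, b, c⟩ := (h.nb hx l True).ne
  have m : x ∈ En F (cmp (sb f σ \ F) y) := ⟨memF hx, y, mem_cmp_self a, b⟩
  ⟨_, ⟨hσ, isCmp_cmp a, h.regU (isCmp_cmp a) (mem_cmp_self a) (c.2 trivial), x, m, hx⟩, m⟩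

theorem exAd' (hx : x ∈ G i ∩ Sk f 3) : ∃ σ ρ, Ad f U G i σ ρ ∧ x ∈ En F ρ :=
  let ⟨σ, a, b⟩ := h.tri x (h.subY hx.1) hx.2; ⟨σ, h.exAd hx.1 a b⟩

theorem uniq (h1 : IsCmp (sb f σ \ F) ρ) (h2 : IsCmp (sb f σ \ F) ρ') (hx : x ∈ G j)
    (a : x ∈ En F ρ) (b : x ∈ En F ρ') (s : ∀ y ∈ ρ, ∀ y' ∈ ρ', (y ∈ U j ↔ y' ∈ U j)) : ρ = ρ' := by
  obtain ⟨-, y, a1, a2⟩ := a
  obtain ⟨-, w, b1, b2⟩ := b
  rw [h1.eq a1, h2.eq ((h.mem_reg h2 hx b1 b2 (h1.sub a1) a2).2 (s y a1 w b1))]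

theorem other (hσ : σ.1.card = 3) (hρ : IsCmp (sb f σ \ F) ρ) (hv : ∀ v ∈ ρ, v ∉ Sk f 1)
    (hx : x ∈ En F ρ) : ∃ x' ∈ En F ρ, ¬ Rch (sb f σ ∩ F) x x' := by
  by_contra k
  push Not at k
  obtain ⟨y, a, b⟩ := (h.tri3 hσ).nl ρ _ hρ (isCmp_cmp (h.enS hρ hx))
    (fun y hy => ⟨h.enS hρ hy, k y hy⟩) ⟨x, hx⟩
  exact hv y a b

theorem ex_en (hρ : IsCmp (sb f σ \ F) ρ) (hv : ∀ v ∈ ρ, v ∉ Sk f 1) : (En F ρ).Nonempty := by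
  by_contra j
  obtain ⟨y, hy⟩ := hρ.ne
  obtain ⟨v, e⟩ := (h.ctr' (Ch.pt σ.top)).ne
  exact hv v (((h.ctr σ).conn y (hρ.sub hy).1 v (e.trans_le (Ch.pt_le.2 σ.top_mem))).ind hy
    fun s hs t ht l => ⟨fun k => cmp_up h.lowF hρ k ht l, fun k => hρ.clopen k
      ⟨hs, fun i => j ⟨s, i, t, k, l⟩⟩ (Or.inr l)⟩) (congrArg (fun c : Ch P => c.1.card) e).le

theorem sk3 (hσ : σ.1.card = 3) (hρ : IsCmp (sb f σ \ F) ρ) (hx : x ∈ En F ρ) : x ∈ Sk f 3 :=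
  (card_le_card (h.enS hρ hx).1).trans hσ.le

/-- across an edge -/
theorem seg' (hσ : σ.1.card = 3) (hσ' : σ'.1.card = 3) (ne : σ ≠ σ')
    (hρ : IsCmp (sb f σ \ F) ρ) (hv : ∀ v ∈ ρ, v ∉ Sk f 1) (hx : x ∈ En F ρ) (l : f x ≤ σ') :
    ∃ s x', Conn s ∧ s ⊆ ρ ∧ s ⊆ sb f σ' \ F ∧ x ∈ En F s ∧ x' ∈ En F s ∧
      ¬ Rch (sb f σ ∩ F) x x' ∧ ¬ Rch (sb f σ' ∩ F) x x' := by
  have m := h.enS hρ hx
  have h2 : x ∈ Sk f 2 := Nat.le_of_not_lt fun j => ne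
    ((Ch.ext (eq_of_subset_of_card_le m.1 (hσ.le.trans j))).symm.trans
      (Ch.ext (eq_of_subset_of_card_le l (hσ'.le.trans j))))
  obtain ⟨s, a, b, c, x', d, n⟩ := h.seg hρ hv hx h2
  exact ⟨s, x', a.conn, b, fun _ j => ⟨le_trans (α := Ch P) (a.sub j).1 l, (a.sub j).2⟩, c, d,
    fun r => n (h.notwo hσ h2 m le_rfl (h.enS a d).1 r).symm,
    fun r => n (h.notwo hσ' h2 ⟨l, m.2⟩ le_rfl (h.enS a d).1 r).symm⟩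

theorem across (hσ : σ.1.card = 3) (hσ' : σ'.1.card = 3) (ne : σ ≠ σ')
    (h1 : IsCmp (sb f σ \ F) ρ) (h2 : IsCmp (sb f σ' \ F) ρ') (hv : ∀ v ∈ ρ, v ∉ Sk f 1)
    (hx : x ∈ G j) (a : x ∈ En F ρ) (b : x ∈ En F ρ')
    (s : ∀ y ∈ ρ, ∀ y' ∈ ρ', (y ∈ U j ↔ y' ∈ U j)) :
    ∃ s x', Conn s ∧ s ⊆ ρ ∧ s ⊆ ρ' ∧ x ∈ En F s ∧ x' ∈ En F s ∧
      ¬ Rch (sb f σ ∩ F) x x' ∧ ¬ Rch (sb f σ' ∩ F) x x' := by
  obtain ⟨t, x', c1, c2, c3, c4, c5⟩ := h.seg' hσ hσ' ne h1 hv a (h.enS h2 b).1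
  obtain ⟨-, y, a1, a2⟩ := id c4
  obtain ⟨-, w, b1, b2⟩ := b
  exact ⟨t, x', c1, c2, sub_cmp h2 c1 c3 a1
    ((h.mem_reg h2 hx b1 b2 (c3 a1) a2).2 (s y (c2 a1) w b1)), c4, c5⟩

/-- the partner of a parallel member -/
theorem label (hp : Par f U G i) : ∃ j, ∀ σ ρ, Ad f U G i σ ρ → ∀ x ∈ En F ρ, x ∈ G i →
    ∀ x' ∈ En F ρ, ¬ Rch (sb f σ ∩ F) x x' → x' ∈ G j := by
  obtain ⟨x0, a1, a2⟩ := h.ne i
  have a3 : x0 ∈ G i ∩ Sk f 3 := ⟨a1, Nat.le_succ_of_le a2⟩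
  obtain ⟨σ0, ρ0, a4, a5⟩ := h.exAd' a3
  obtain ⟨x1, a6, a7⟩ := h.other a4.card a4.reg (hp _ _ a4).1 a5
  obtain ⟨j, hj⟩ := Set.mem_iUnion.1 a6.1
  let q : Q → Prop := fun x => ∃ σ ρ, Ad f U G i σ ρ ∧ x ∈ En F ρ ∧
    ∃ x' ∈ En F ρ, ¬ Rch (sb f σ ∩ F) x x' ∧ x' ∈ G j
  have B : ∀ σ ρ, Ad f U G i σ ρ → ∀ x ∈ En F ρ, ∀ a ∈ En F ρ, ∀ b ∈ En F ρ,
      ¬ Rch (sb f σ ∩ F) x a → ¬ Rch (sb f σ ∩ F) x b → a ∈ G j → b ∈ G j :=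
    fun σ ρ c x hx a ha b hb n1 n2 k =>
      h.rchG k ((((hp σ ρ c).2 x hx a ha b hb).resolve_left n1).resolve_left n2)
  have A : ∀ x ∈ G i, q x → ∀ σ ρ, Ad f U G i σ ρ → x ∈ En F ρ →
      ∀ x' ∈ En F ρ, ¬ Rch (sb f σ ∩ F) x x' → x' ∈ G j := by
    rintro x hx ⟨σ, ρ, c1, c2, a, c3, c4, c5⟩ σ' ρ' d1 d2 b d3 d4
    have s : ∀ y ∈ ρ, ∀ y' ∈ ρ', (y ∈ U i ↔ y' ∈ U i) := fun _ a _ b =>
      iff_of_true (c1.sub a) (d1.sub b)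
    by_cases e : σ = σ'
    · subst e
      obtain rfl := h.uniq c1.reg d1.reg hx c2 d2 s
      exact B _ _ c1 x c2 a c3 b d3 c4 d4 c5
    · obtain ⟨t, v, -, e2, e3, -, e5, e6, e7⟩ :=
        h.across c1.card d1.card e c1.reg d1.reg (hp _ _ c1).1 hx c2 d2 s
      exact B _ _ d1 x d2 v (en_mono e3 e5) b d3 e7 d4 (B _ _ c1 x c2 a c3 v (en_mono e2 e5) c4 e6 c5)
  refine ⟨j, fun σ ρ c x hx k => A x k ((h.conn i x0 a3 x ⟨k, h.sk3 c.card c.reg hx⟩).ind (p := q)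
    ⟨σ0, ρ0, a4, a5, x1, a6, a7, hj⟩ fun a ha b hb l => ?_) σ ρ c hx⟩
  obtain ⟨σ, ρ, c1, c2⟩ := h.exAd' hb
  have c3 := en_low h.lowF l c2
  have r := Rch.of_cm (h.enS c1.reg c3) (h.enS c1.reg c2) (Or.inl l)
  obtain ⟨v, c4, c5⟩ := h.other c1.card c1.reg (hp _ _ c1).1 c2
  have c6 : ¬ Rch (sb f σ ∩ F) a v := fun j => c5 (r.symm.trans j)
  exact ⟨fun k => ⟨σ, ρ, c1, c2, v, c4, c5, A a ha.1 k σ ρ c1 c3 v c4 c6⟩,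
    fun k => ⟨σ, ρ, c1, c3, v, c4, c6, A b hb.1 k σ ρ c1 c2 v c4 c5⟩⟩

/-- potentials go across a band -/
theorem transfer {a b : Fin k} {p : Prop} {W : Set Q} (hb : G b ⊆ W)
    (hs : ∀ x ∈ G b ∩ Sk f 3, ∃ σ ρ, Sp f U G a b p W σ ρ ∧ x ∈ En F ρ) {ζ : Q → Q → ℤ}
    (hζ : CocOn W ζ) (he : ExOn (G a) ζ) : ExOn (G b) ζ := by
  obtain ⟨g, hg⟩ := he
  have : ∀ ρ, ∃ u : Q → ℤ, ∀ σ, Sp f U G a b p W σ ρ →
      (∀ x ∈ ρ ∪ En F ρ, ∀ y ∈ ρ ∪ En F ρ, x ≤ y → ζ x y = u y - u x) ∧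
        ∀ x ∈ En F ρ, x ∈ G a → u x = g x := fun ρ => by
    by_cases k : ∃ σ, Sp f U G a b p W σ ρ
    swap
    · exact ⟨0, fun σ c => absurd ⟨σ, c⟩ k⟩
    obtain ⟨σ, c⟩ := k
    obtain ⟨x0, h0⟩ := h.ex_en c.reg c.vf
    obtain ⟨u, hu⟩ := (h.ctrS c.card c.reg h0).ex ℤ ζ (cocOn_mono hζ c.sub)
    by_cases k : (En F ρ ∩ G a).Nonempty
    swap
    · exact ⟨u, fun _ _ => ⟨hu, fun x h1 h2 => absurd ⟨x, h1, h2⟩ k⟩⟩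
    obtain ⟨v, v1, v2⟩ := k
    refine ⟨fun t => u t + (g v - u v), fun _ _ => ⟨fun x hx y hy l => by
      rw [hu x hx y hy l]; ring, fun x h1 h2 => ?_⟩⟩
    refine (rch_cm (c.one a v v1 x h1 v2 h2) (p := fun t => t ∈ En F ρ ∧ t ∈ G a ∧
      u t + (g v - u v) = g t) ⟨v1, v2, by ring⟩ fun s hs t ht l ⟨k1, k2, k3⟩ => ?_).2.2
    have k4 := h.en_rch c.reg k1 (Rch.of_cm hs ht l)
    have k5 := h.cmG k2 ht.2 l
    refine ⟨k4, k5, ?_⟩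
    rcases l with l | l
    · have := hu s (Or.inr k1) t (Or.inr k4) l
      have := hg s k2 t k5 l
      omega
    · have := hu t (Or.inr k4) s (Or.inr k1) l
      have := hg t k5 s k2 l
      omega
  choose u hu using this
  have key : ∀ x ∈ G b, ∀ σ ρ σ' ρ', Sp f U G a b p W σ ρ → Sp f U G a b p W σ' ρ' → x ∈ En F ρ →
      x ∈ En F ρ' → u ρ x = u ρ' x := fun x hx σ ρ σ' ρ' c d c2 d2 => by
    have s : ∀ y ∈ ρ, ∀ y' ∈ ρ', (y ∈ U b ↔ y' ∈ U b) := fun _ a _ b =>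
      (c.side _ a).trans (d.side _ b).symm
    by_cases e : σ = σ'
    · subst e
      rw [h.uniq c.reg d.reg hx c2 d2 s]
    obtain ⟨t, v, e1, e2, e3, e4, e5, e6, -⟩ := h.across c.card d.card e c.reg d.reg c.vf hx c2 d2 s
    have v1 := en_mono e2 e5
    have v2 := en_mono e3 e5
    have v3 := (c.en v1).resolve_right (fun j => e6 (c.one b x c2 v v1 hx j))
    obtain ⟨-, y, y1, y2⟩ := e4
    obtain ⟨-, w, w1, w2⟩ := e5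
    have := (e1 y y1 w w1).eq (g := fun t => u ρ t - u ρ' t) fun r hr r' hr' l => by
      have := (hu ρ σ c).1 r (Or.inl (e2 hr)) r' (Or.inl (e2 hr')) l
      have := (hu ρ' σ' d).1 r (Or.inl (e3 hr)) r' (Or.inl (e3 hr')) l
      omega
    have := (hu ρ σ c).1 x (Or.inr c2) y (Or.inl (e2 y1)) y2
    have := (hu ρ' σ' d).1 x (Or.inr d2) y (Or.inl (e3 y1)) y2
    have := (hu ρ σ c).1 v (Or.inr v1) w (Or.inl (e2 w1)) w2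
    have := (hu ρ' σ' d).1 v (Or.inr v2) w (Or.inl (e3 w1)) w2
    have := (hu ρ σ c).2 v v1 v3
    have := (hu ρ' σ' d).2 v v2 v3
    omega
  choose! S R h1 h2 using hs
  refine h.ex b ζ (cocOn_mono hζ hb) ⟨fun x => u (R x) x, fun x hx y hy l => ?_⟩
  have m := en_low h.lowF l (h2 y hy)
  rw [(hu _ _ (h1 y hy)).1 x (Or.inr m) y (Or.inr (h2 y hy)) l,
    key x hx.1 _ _ _ _ (h1 y hy) (h1 x hx) m (h2 x hx)]

theorem nest (ne : i ≠ j) (hs : G j ⊆ U i) : G i ⊆ V j := fun x hx => by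
  have n : ∀ x ∈ G i, x ∉ G j := fun x a b => ne (h.eqG a b)
  refine (((h.two j).cov x (h.subY hx)).resolve_left fun k => ?_).resolve_left (n x hx)
  have s := h.subU (h.fm.mem i).conn n hx k
  have cl : ∀ a ∈ U i ∪ U j, ∀ b, Cm a b → b ∈ U i ∪ U j := fun a ha b l => l.elim
    (fun l => ha.imp ((h.two i).up l) ((h.two j).up l)) fun l => by_contra fun m => ha.elim
      (fun c => m (Or.inr (s ((h.fm.mem i).om ⟨fun d => m (Or.inl d), a, c, l⟩))))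
      fun c => m (Or.inl (hs ((h.fm.mem j).om ⟨fun d => m (Or.inr d), a, c, l⟩)))
  obtain ⟨b, -, r, o, o1, o2⟩ := h.esc x (h.subY hx)
  exact o1 ((cl b (rch_cm r (Or.inr k) fun a _ b _ l c => cl a c b l) o o2).elim
    (fun c => (h.two i).sub c) fun c => (h.two j).sub c)

/-- two different members are not parallel -/
theorem not_two (hp : Par f U G i) (ne : i ≠ j) (hj : ∀ σ ρ, Ad f U G i σ ρ → ∀ x ∈ En F ρ,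
    x ∈ G i → ∀ x' ∈ En F ρ, ¬ Rch (sb f σ ∩ F) x x' → x' ∈ G j) : False := by
  obtain ⟨x0, a1, a2⟩ := h.ne i
  obtain ⟨σ0, ρ0, a4, a5⟩ := h.exAd' ⟨a1, Nat.le_succ_of_le a2⟩
  obtain ⟨x1, a6, a7⟩ := h.other a4.card a4.reg (hp _ _ a4).1 a5
  have a8 := hj _ _ a4 x0 a5 a1 x1 a6 a7
  have n : ∀ x ∈ G j, x ∉ G i := fun x a b => ne (h.eqG b a)
  have s1 : G j ⊆ U i := h.subU (h.fm.mem j).conn n a8 (by_contra fun m =>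
    let ⟨_, y, b, l⟩ := a6; n x1 a8 ((h.fm.mem i).om ⟨m, y, a4.sub b, l⟩))
  have s2 := h.nest ne s1
  have w1 : G i ⊆ (U i ∪ G i) ∩ (V j ∪ G j) := fun _ k => ⟨Or.inr k, Or.inl (s2 k)⟩
  have w2 : G j ⊆ (U i ∪ G i) ∩ (V j ∪ G j) := fun _ k => ⟨Or.inl (s1 k), Or.inr k⟩
  have sp : ∀ σ ρ, Ad f U G i σ ρ → Sp f U G j i True ((U i ∪ G i) ∩ (V j ∪ G j)) σ ρ ∧
      Sp f U G i j False ((U i ∪ G i) ∩ (V j ∪ G j)) σ ρ := fun σ ρ c => by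
    obtain ⟨x, x1, x2⟩ := c.ne
    have b1 : ∀ y ∈ ρ, y ∉ U j := fun y hy k =>
      let ⟨_, w, a, l⟩ := x1
      Set.disjoint_left.1 (h.two j).dj (h.regU c.reg hy k a) ((h.two j).up' l (s2 x2))
    have b2 : ∀ v ∈ En F ρ, v ∈ G i ↔ Rch (sb f σ ∩ F) x v := fun v hv =>
      ⟨fun k => by_contra fun m => n v (hj σ ρ c x x1 x2 v hv m) k, h.rchG x2⟩
    have b3 : En F ρ ⊆ G i ∪ G j := fun v hv =>
      (Classical.em _).imp (b2 v hv).2 (hj σ ρ c x x1 x2 v hv)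
    have b4 : ρ ∪ En F ρ ⊆ (U i ∪ G i) ∩ (V j ∪ G j) := fun y hy => hy.elim
      (fun k => ⟨Or.inl (c.sub k), (((h.two j).cov y ((h.two i).sub (c.sub k))).resolve_left
        (b1 y k)).symm⟩) fun k => (b3 k).elim (fun k => w1 k) fun k => w2 k
    have b5 : ∀ t, ∀ v ∈ En F ρ, ∀ w ∈ En F ρ, v ∈ G t → w ∈ G t → Rch (sb f σ ∩ F) v w :=
      fun t v hv w hw k1 k2 => by
        by_cases e : i = t
        · subst e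
          exact ((b2 v hv).1 k1).symm.trans ((b2 w hw).1 k2)
        · exact (((hp σ ρ c).2 x x1 v hv w hw).resolve_left fun r =>
            e (h.eqG (h.rchG x2 r) k1)).resolve_left fun r => e (h.eqG (h.rchG x2 r) k2)
    exact ⟨⟨c.card, c.reg, (hp σ ρ c).1, b4, Set.union_comm _ _ ▸ b3, b5,
      fun y hy => iff_true_intro (c.sub hy)⟩, c.card, c.reg, (hp σ ρ c).1, b4, b3, b5,
      fun y hy => iff_false_intro (b1 y hy)⟩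
  have mk : ∀ x ∈ G j ∩ Sk f 3, ∃ σ ρ, Ad f U G i σ ρ ∧ x ∈ En F ρ := fun x hx => by
    refine (h.conn j x1 ⟨a8, h.sk3 a4.card a4.reg a6⟩ x hx).ind
      (p := fun x => ∃ σ ρ, Ad f U G i σ ρ ∧ x ∈ En F ρ) ⟨σ0, ρ0, a4, a6⟩ fun a ha b hb l =>
        ⟨fun ⟨σ, ρ, c, d⟩ => ?_, fun ⟨σ, ρ, c, d⟩ => ⟨σ, ρ, c, en_low h.lowF l d⟩⟩
    obtain ⟨σ', b1, b2⟩ := h.tri b (h.subY hb.1) hb.2
    have b3 := (h.mono l).trans b1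
    obtain ⟨ρ', c', d'⟩ : ∃ ρ', Ad f U G i σ' ρ' ∧ a ∈ En F ρ' := by
      by_cases e : σ = σ'
      · exact ⟨ρ, e ▸ c, d⟩
      obtain ⟨s, v, e1, e2, e3, e4, e5, e6, -⟩ := h.seg' c.card b2 e c.reg (hp _ _ c).1 d b3
      obtain ⟨-, y, y1, -⟩ := id e4
      have r := isCmp_cmp (e3 y1)
      have m := mem_cmp_self (e3 y1)
      have m' := sub_cmp r e1 e3 y1 m
      exact ⟨_, ⟨b2, r, h.regU r m (c.sub (e2 y1)), v, en_mono m' e5,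
        ((sp σ ρ c).2.en (en_mono e2 e5)).resolve_right fun k =>
          e6 ((sp σ ρ c).2.one j a d v (en_mono e2 e5) ha.1 k)⟩, en_mono m' e4⟩
    exact ⟨σ', ρ', c', h.en_rch c'.reg d' (Rch.of_cm ⟨b3, memF ha.1⟩ ⟨b1, memF hb.1⟩ (Or.inl l))⟩
  obtain ⟨ζ, z1, z2⟩ := h.fm.np i j ne s1
  exact z2 ⟨h.transfer w2 (fun x hx => let ⟨σ, ρ, c, d⟩ := mk x hx; ⟨σ, ρ, (sp σ ρ c).2, d⟩) z1,
    h.transfer w1 (fun x hx => let ⟨σ, ρ, c, d⟩ := h.exAd' hx; ⟨σ, ρ, (sp σ ρ c).1, d⟩) z1⟩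

end Dt

end Crest.Agent.X212.Kc37
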