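import Crest.Agent.X212.Kh11.Lev
import Crest.Agent.X212.Hp13.Thk

/-!
# X212 / Kc37 (helper37): KH-COUNT, two sided curves in a connected complex
-/

set_option autoImplicit false
set_option linter.unusedSectionVars false

open Finset Classical

noncomputable section

namespace Crest.Agent.X212.Kc37

open Hp13

variable {Q : Type} [PartialOrder Q] [Fintype Q] {S F α β ρ ρ' C Vx : Set Q} {s t : Q → Prop}
  {x y : Q} {p : Prop}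

theorem rch_cm {E : Set Q} (h : Rch E x y) {p : Q → Prop} (hx : p x)
    (hp : ∀ a ∈ E, ∀ b ∈ E, Cm a b → p a → p b) : p y :=
  h.ind hx fun a ha b hb e => ⟨hp a ha b hb (Or.inl e), hp b hb a ha (Or.inr e)⟩

theorem sub_cmp {E X : Set Q} (hX : IsCmp E X) (hC : Conn C) (k : C ⊆ E) (h1 : x ∈ C)
    (h2 : x ∈ X) : C ⊆ X := fun y hy => hX.eq h2 ▸ ⟨k hy, (hC x h1 y hy).mono k⟩

/-- the ends of a region -/
def En (F ρ : Set Q) : Set Q := {x | x ∈ F ∧ ∃ y ∈ ρ, x ≤ y}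

theorem en_mono (h : ρ ⊆ ρ') : En F ρ ⊆ En F ρ' := fun _ ⟨a, y, b, c⟩ => ⟨a, y, h b, c⟩

theorem en_low (hF : IsLowerSet F) : IsLowerSet (En F ρ) :=
  fun _ _ l ⟨a, y, b, c⟩ => ⟨hF l a, y, b, l.trans c⟩

/-- at most two curves meet the region -/
def Tw2 (S F ρ : Set Q) : Prop := ∀ a ∈ En F ρ, ∀ b ∈ En F ρ, ∀ c ∈ En F ρ,
  Rch (S ∩ F) a b ∨ Rch (S ∩ F) a c ∨ Rch (S ∩ F) b c

/-- a curve with its sides -/
structure Cu (S F α : Set Q) (s : Q → Prop) : Prop where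
  lS : IsLowerSet S
  lF : IsLowerSet F
  cS : Conn S
  cmp : IsCmp (S ∩ F) α
  loc : ∀ y ∈ S \ α, ∀ y' ∈ S \ α, y ≤ y' → (s y ↔ s y')
  ctr : ∀ x ∈ α, ∀ p : Prop, Ctr {y | y ∈ S \ F ∧ x ≤ y ∧ (s y ↔ p)}

/-- a side -/
def Os (S α : Set Q) (s : Q → Prop) (p : Prop) : Set Q := {y | y ∈ S \ α ∧ (s y ↔ p)}

theorem cmp_up (hF : IsLowerSet F) (hρ : IsCmp (S \ F) ρ) (hx : x ∈ ρ) (hy : y ∈ S) (l : x ≤ y) :
    y ∈ ρ := hρ.clopen hx ⟨hy, fun k => (hρ.sub hx).2 (hF l k)⟩ (Or.inl l)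

namespace Cu
variable (h : Cu S F α s)
include h

theorem low : IsLowerSet α := fun _ _ l k =>
  h.cmp.clopen k ⟨h.lS l (h.cmp.sub k).1, h.lF l (h.cmp.sub k).2⟩ (Or.inr l)

theorem off (hy : y ∈ S \ F) : y ∈ S \ α := ⟨hy.1, fun k => hy.2 (h.cmp.sub k).2⟩

theorem off' (hx : x ∈ α) (hy : y ∈ S \ α) (l : x ≤ y) : y ∈ S \ F :=
  ⟨hy.1, fun k => hy.2 (h.cmp.clopen hx ⟨hy.1, k⟩ (Or.inl l))⟩

theorem const (hC : Conn C) (k : C ⊆ S \ α) (hx : x ∈ C) (hy : y ∈ C) : s x ↔ s y :=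
  ((hC x hx y hy).eq (g := s) fun a ha b hb l => propext (h.loc a (k ha) b (k hb) l)).to_iff

theorem cm (hx : x ∈ S \ α) (hy : y ∈ S \ α) (l : Cm x y) : s x ↔ s y :=
  l.elim (h.loc x hx y hy) fun l => (h.loc y hy x hx l).symm

theorem os_up (hx : x ∈ Os S α s p) (hy : y ∈ S) (l : x ≤ y) : y ∈ Os S α s p :=
  have k : y ∈ S \ α := ⟨hy, fun k => hx.1.2 (h.low l k)⟩
  ⟨k, (h.loc x hx.1 y k l).symm.trans hx.2⟩

theorem connN (p : Prop) : Conn {y | y ∈ S \ F ∧ (∃ x ∈ α, x ≤ y) ∧ (s y ↔ p)} := by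
  rintro y ⟨h1, ⟨x, hx, l⟩, h2⟩ y' ⟨h3, ⟨x', hx', l'⟩, h4⟩
  have m : ∀ a ∈ α, {y | y ∈ S \ F ∧ a ≤ y ∧ (s y ↔ p)} ⊆
      {y | y ∈ S \ F ∧ (∃ x ∈ α, x ≤ y) ∧ (s y ↔ p)} := fun a ha _ k => ⟨k.1, ⟨a, ha, k.2.1⟩, k.2.2⟩
  refine (h.cmp.conn x hx x' hx').ind (p := fun a => ∀ w, w ∈ S \ F → a ≤ w → (s w ↔ p) →
    Rch {y | y ∈ S \ F ∧ (∃ x ∈ α, x ≤ y) ∧ (s y ↔ p)} y w)
    (fun w k1 k2 k3 => ((h.ctr x hx p).conn y ⟨h1, l, h2⟩ w ⟨k1, k2, k3⟩).mono (m x hx))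
    (fun a ha b hb e => ⟨fun k w k1 k2 k3 => k w k1 (e.trans k2) k3, fun k w k1 k2 k3 => ?_⟩)
    y' h3 l' h4
  obtain ⟨v, hv⟩ := (h.ctr b hb p).ne
  exact (k v hv.1 hv.2.1 hv.2.2).trans
    (((h.ctr a ha p).conn v ⟨hv.1, e.trans hv.2.1, hv.2.2⟩ w ⟨k1, k2, k3⟩).mono (m a ha))

theorem connO (p : Prop) : Conn (Os S α s p) := by
  obtain ⟨x, hx⟩ := h.cmp.ne
  have m : {y | y ∈ S \ F ∧ (∃ x ∈ α, x ≤ y) ∧ (s y ↔ p)} ⊆ Os S α s p :=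
    fun _ k => ⟨h.off k.1, k.2.2⟩
  have k : ∀ y ∈ Os S α s p, ∃ n ∈ {y | y ∈ S \ F ∧ (∃ x ∈ α, x ≤ y) ∧ (s y ↔ p)},
      Rch (Os S α s p) n y := fun y hy =>
    rch_cm (h.cS x (h.cmp.sub hx).1 y hy.1.1) (p := fun y => y ∈ Os S α s p →
      ∃ n ∈ {y | y ∈ S \ F ∧ (∃ x ∈ α, x ≤ y) ∧ (s y ↔ p)}, Rch (Os S α s p) n y)
      (fun k => absurd hx k.1.2) (fun a ha b _ l k hb => by
        by_cases j : a ∈ α
        · have l' := l.resolve_right fun i => hb.1.2 (h.low i j)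
          exact ⟨b, ⟨h.off' j hb.1 l', ⟨a, j, l'⟩, hb.2⟩, Rch.rfl⟩
        · have i : a ∈ Os S α s p := ⟨⟨ha, j⟩, (h.cm ⟨ha, j⟩ hb.1 l).trans hb.2⟩
          obtain ⟨n, h1, h2⟩ := k i
          exact ⟨n, h1, h2.trans (Rch.of_cm i hb l)⟩) hy
  intro y hy y' hy'
  obtain ⟨n, h1, h2⟩ := k y hy
  obtain ⟨n', h3, h4⟩ := k y' hy'
  exact h2.symm.trans (((h.connN p n h1 n' h3).mono m).trans h4)

theorem reg (hρ : IsCmp (S \ F) ρ) (hx : x ∈ ρ) (hy : y ∈ ρ) : s x ↔ s y :=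
  h.const hρ.conn (fun _ k => h.off (hρ.sub k)) hx hy

/-- the part of a region over a point of an adjacent curve -/
theorem fib (hρ : IsCmp (S \ F) ρ) (hx : x ∈ α) (hy : y ∈ ρ) (l : x ≤ y) {a : Q} (ha : a ∈ α) :
    {w | w ∈ ρ ∧ a ≤ w} = {w | w ∈ S \ F ∧ a ≤ w ∧ (s w ↔ s y)} :=
  Set.ext fun _ => ⟨fun k => ⟨hρ.sub k.1, k.2, h.reg hρ k.1 hy⟩, fun k =>
    ⟨sub_cmp hρ (h.connN (s y)) (fun _ j => j.1) ⟨hρ.sub hy, ⟨x, hx, l⟩, Iff.rfl⟩ hy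
      ⟨k.1, ⟨a, ha, k.2.1⟩, k.2.2⟩, k.2.1⟩⟩

theorem ctr_fib (hρ : IsCmp (S \ F) ρ) (hx : x ∈ α) (k : x ∈ En F ρ) {a : Q} (ha : a ∈ α) :
    Ctr {w | w ∈ ρ ∧ a ≤ w} :=
  let ⟨_, y, hy, l⟩ := k; h.fib hρ hx hy l ha ▸ h.ctr a ha (s y)

theorem sub_en (hρ : IsCmp (S \ F) ρ) (hx : x ∈ α) (k : x ∈ En F ρ) : α ⊆ En F ρ := fun _ ha =>
  let ⟨w, hw⟩ := (h.ctr_fib hρ hx k ha).ne; ⟨(h.cmp.sub ha).2, w, hw⟩

theorem en_S (hρ : IsCmp (S \ F) ρ) (k : x ∈ En F ρ) : x ∈ S ∩ F :=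
  let ⟨a, _, b, c⟩ := k; ⟨h.lS c (hρ.sub b).1, a⟩

/-- an end off the curve is on the side of the region -/
theorem en_side (hρ : IsCmp (S \ F) ρ) (k : x ∈ En F ρ) (hx : x ∉ α) (hy : y ∈ ρ) : s x ↔ s y :=
  let ⟨_, w, b, c⟩ := id k
  (h.loc x ⟨(h.en_S hρ k).1, hx⟩ w (h.off (hρ.sub b)) c).trans (h.reg hρ b hy)

theorem other (h' : IsCmp (S ∩ F) β) (hx : x ∈ β) (k : x ∉ α) : β ⊆ S \ α := fun _ hy =>
  ⟨(h'.sub hy).1, fun j => k (sub_cmp h.cmp h'.conn h'.sub hy j hx)⟩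

/-- the far side of another curve -/
theorem far (h' : Cu S F β t) {a b : Q} (ha : a ∈ α) (hb : b ∈ β) (k : b ∉ α) (hp : ¬ (t a ↔ p)) :
    Os S β t p ⊆ Os S α s (s b) := by
  have o := h'.other h.cmp ha fun j => (h.other h'.cmp hb k j).2 ha
  have m : Os S β t p ⊆ S \ α := fun y hy => ⟨hy.1.1, fun j =>
    hp ((h'.const h.cmp.conn o ha j).trans hy.2)⟩
  obtain ⟨w, hw⟩ := (h'.ctr b hb p).ne
  have k' : w ∈ Os S β t p := ⟨h'.off hw.1, hw.2.2⟩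
  exact fun y hy => ⟨m hy, (h.const (h'.connO p) m hy k').trans
    (h.loc b (h.other h'.cmp hb k hb) w (m k') hw.2.1).symm⟩

end Cu

/-- all curves are two sided and there is no leaf -/
structure Tri (S F Vx : Set Q) : Prop where
  cu : ∀ α, IsCmp (S ∩ F) α → ∃ s, Cu S F α s
  nl : ∀ ρ α, IsCmp (S \ F) ρ → IsCmp (S ∩ F) α → En F ρ ⊆ α → (En F ρ).Nonempty →
    ∃ y ∈ ρ, y ∈ Vx
  off : ∀ v ∈ Vx, v ∉ F

namespace Tri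
variable (H : Tri S F Vx)
include H

/-- every side contains a vertex -/
theorem vtx (h : Cu S F α s) (p : Prop) : ∃ v ∈ Os S α s p, v ∈ Vx := by
  induction' e : (Os S α s p).ncard using Nat.strong_induction_on with n ih generalizing α s p
  obtain ⟨x, hx⟩ := h.cmp.ne
  obtain ⟨y, hy⟩ := (h.ctr x hx p).ne
  have hρ := isCmp_cmp hy.1
  have m := mem_cmp_self hy.1
  by_cases k : En F (cmp (S \ F) y) ⊆ α
  · obtain ⟨v, h1, h2⟩ := H.nl _ _ hρ h.cmp k ⟨x, (h.cmp.sub hx).2, y, m, hy.2.1⟩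
    exact ⟨v, ⟨h.off h1.1, (h.reg hρ h1 m).trans hy.2.2⟩, h2⟩
  obtain ⟨b, h1, h2⟩ := Set.not_subset.1 k
  have h3 := h.en_S hρ h1
  obtain ⟨t, h'⟩ := H.cu _ (isCmp_cmp h3)
  have h4 := (h.en_side hρ h1 h2 m).trans hy.2.2
  have h5 := h.far h' hx (mem_cmp_self h3) h2 (p := ¬ t x) (iff_not_self)
  rw [propext h4] at h5
  obtain ⟨v, h6, h7⟩ := ih _ (e ▸ Set.ncard_lt_ncard ⟨h5, fun j =>
    (j ⟨⟨h3.1, h2⟩, h4⟩).1.2 (mem_cmp_self h3)⟩) h' (¬ t x) rfl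
  exact ⟨v, h5 h6, h7⟩

theorem good (h : Cu S F α s) (h' : Cu S F β t) {a b : Q} (ha : a ∈ α) (hb : b ∈ β) (k : b ∉ α)
    (e : ∀ v ∈ S, v ∈ Vx → (s v ↔ t v)) (h2 : ¬ t a) (hρ : IsCmp (S \ F) ρ)
    (hx : x ∈ α) (hy : y ∈ ρ) (l : x ≤ y) (h3 : s y) : (∀ v ∈ ρ, v ∉ Vx) ∧ Tw2 S F ρ := by
  have ex : x ∈ En F ρ := ⟨(h.cmp.sub hx).2, y, hy, l⟩
  have o := h'.other h.cmp ha fun j => (h.other h'.cmp hb k j).2 ha
  have h4 : ¬ t y := fun j => h2 ((h'.const h.cmp.conn o ha hx).2 ((h'.en_side hρ ex (o hx).2 hy).2 j))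
  have K : ∀ c ∈ En F ρ, c ∉ α → ∀ γ u, Cu S F γ u → c ∈ γ → b ∉ Os S γ u (u y) := by
    intro c hc c1 γ u hγ c2 c3
    obtain ⟨v, v1, v2⟩ := H.vtx hγ (¬ u y)
    have o' := hγ.other h.cmp hx fun j => (h.other hγ.cmp c2 c1 j).2 hx
    have v3 := h.far hγ hx c2 c1 (p := ¬ u y)
      (by rw [hγ.en_side hρ ex (o' hx).2 hy]; exact iff_not_self) v1
    have c4 : c ∉ β := fun j => (hγ.other h'.cmp hb c3.1.2 j).2 c2
    have v4 := h'.far hγ hb c2 c4 (p := ¬ u y) (by rw [c3.2]; exact iff_not_self) v1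
    exact h4 ((h'.en_side hρ hc c4 hy).1 (v4.2.1 ((e v v1.1.1 v2).1
      (v3.2.2 ((h.en_side hρ hc c1 hy).2 h3)))))
  have L : ∀ c ∈ En F ρ, c ∉ α → ∀ d ∈ En F ρ, d ∉ α → Rch (S ∩ F) c d := by
    intro c hc c1 d hd d1
    by_contra j
    have c2 := h.en_S hρ hc
    have d2 := h.en_S hρ hd
    obtain ⟨u, hγ⟩ := H.cu _ (isCmp_cmp c2)
    obtain ⟨w, hδ⟩ := H.cu _ (isCmp_cmp d2)
    have c3 := mem_cmp_self c2
    have d3 := mem_cmp_self d2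
    have c4 : c ∉ cmp (S ∩ F) d := fun i => j i.2.symm
    have c5 := hδ.en_side hρ hc c4 hy
    refine K d hd d1 _ w hδ d3 ?_
    by_cases i : b ∈ cmp (S ∩ F) c
    · have o' := hδ.other hγ.cmp c3 c4
      exact ⟨o' i, (hδ.const hγ.cmp.conn o' i c3).trans c5⟩
    · have := hδ.far hγ d3 c3 c4 (p := ¬ u y)
        (by rw [hγ.en_side hρ hd (fun i => j i.2) hy]; exact iff_not_self)
        ⟨⟨(h'.cmp.sub hb).1, i⟩, by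
          have := K c hc c1 _ u hγ c3
          have : ¬ (u b ↔ u y) := fun r => this ⟨⟨(h'.cmp.sub hb).1, i⟩, r⟩
          tauto⟩
      exact ⟨this.1, this.2.trans c5⟩
  refine ⟨fun v v1 v2 => h4 ((h'.reg hρ v1 hy).1 ((e v (hρ.sub v1).1 v2).1
    ((h.reg hρ v1 hy).2 h3))), fun a ha b hb c hc => ?_⟩
  have M : ∀ c ∈ α, ∀ d ∈ α, Rch (S ∩ F) c d := fun c i d j => (h.cmp.conn c i d j).mono h.cmp.sub
  by_cases i : a ∈ α <;> by_cases j : b ∈ α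
  · exact Or.inl (M a i b j)
  · by_cases r : c ∈ α
    exacts [Or.inr (Or.inl (M a i c r)), Or.inr (Or.inr (L b hb j c hc r))]
  · by_cases r : c ∈ α
    exacts [Or.inr (Or.inr (M b j c r)), Or.inr (Or.inl (L a ha i c hc r))]
  · exact Or.inl (L a ha i b hb j)

/-- two curves that cut off the same vertices -/
theorem pair (h : Cu S F α s) (h' : Cu S F β t) {a b y y' : Q} (ha : a ∈ α) (hb : b ∈ β)
    (k : b ∉ α) (e : ∀ v ∈ S, v ∈ Vx → (s v ↔ t v)) (hρ : IsCmp (S \ F) ρ) (hy : y ∈ ρ)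
    (l : a ≤ y) (h1 : s y) (hρ' : IsCmp (S \ F) ρ') (hy' : y' ∈ ρ') (l' : b ≤ y') (h2 : t y') :
    ((∀ v ∈ ρ, v ∉ Vx) ∧ Tw2 S F ρ) ∨ (∀ v ∈ ρ', v ∉ Vx) ∧ Tw2 S F ρ' := by
  have k' : a ∉ β := fun j => (h.other h'.cmp hb k j).2 ha
  have : ¬ (s b ↔ t a) := fun j => by
    obtain ⟨v, v1, v2⟩ := H.vtx h (¬ s b)
    have := (h'.far h hb ha k' (p := ¬ s b) iff_not_self v1).2
    have := e v v1.1.1 v2
    have := v1.2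
    tauto
  by_cases j : s b
  · exact Or.inl (H.good h h' ha hb k e (by tauto) hρ ha hy l h1)
  · exact Or.inr (H.good h' h hb ha k' (fun v a b => (e v a b).symm) j hρ' hb hy' l' h2)

end Tri

end Crest.Agent.X212.Kc37
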