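import Crest.Agent.X212.Kc37.Dsk

/-!
# X212 / Kc37 (helper37): KH-COUNT, normal curves in the triangles
-/

set_option autoImplicit false
set_option linter.unusedSectionVars false

open Finset Classical

noncomputable section

namespace Crest.Agent.X212.Kc37

open Hp13 Hk
open Alg36 (Om Esc)
open Kh11 (WS)

variable {P Q : Type} [PartialOrder P] [Fintype P] [PartialOrder Q] [Fintype Q]

section
variable {S F α ρ : Set Q} {s : Q → Prop}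

theorem om_cmp (hS : IsLowerSet S) (hρ : IsCmp (S \ F) ρ) : S ∩ Om ρ = En F ρ :=
  Set.ext fun _ => ⟨fun ⟨a, b, y, c, d⟩ => ⟨by_contra fun j => b (hρ.clopen c ⟨a, j⟩ (Or.inr d)),
    y, c, d⟩, fun ⟨a, y, c, d⟩ => ⟨hS d (hρ.sub c).1, fun j => (hρ.sub j).2 a, y, c, d⟩⟩

theorem Cu.fibO (h : Cu S F α s) (p : Prop) {x : Q} (hx : x ∈ α) :
    Ctr {y | y ∈ Os S α s p ∧ x ≤ y} := by
  convert h.ctr x hx p using 1
  exact Set.ext fun y => ⟨fun k => ⟨h.off' hx k.1.1 k.2, k.2, k.1.2⟩,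
    fun k => ⟨⟨h.off k.1, k.2.2⟩, k.2.1⟩⟩

theorem Cu.om (h : Cu S F α s) (p : Prop) : S ∩ Om (Os S α s p) = α :=
  Set.ext fun x => ⟨fun ⟨a, b, y, c, d⟩ => by_contra fun j =>
    b ⟨⟨a, j⟩, (h.loc x ⟨a, j⟩ y c.1 d).trans c.2⟩, fun k =>
      ⟨(h.cmp.sub k).1, fun j => j.1.2 k, (h.fibO p k).ne⟩⟩

theorem Cu.up (h : Cu S F α s) (p : Prop) : Up S (Os S α s p) :=
  ⟨fun _ k => k.1.1, fun _ hx _ hy l => h.os_up hx hy l⟩

end

/-- the closed simplex -/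
abbrev sb (f : Q → Ch P) (σ : Ch P) : Set Q := {x | f x ≤ σ}

/-- what is used of a normal family -/
structure Dt (f : Q → Ch P) (Y : Set Q) {k : ℕ} (U G V : Fin k → Set Q) : Prop where
  fm : Fm f Y k U G V
  mono : Monotone f
  upY : IsUpperSet Y
  esc : Esc Y Y
  ctr : ∀ σ, Ctr (sb f σ)
  ctr' : ∀ σ, Ctr (f ⁻¹' {σ})
  mf : ∀ (σ : Ch P) n, σ.1.card = n + 1 → Mf n (Subtype.val ⁻¹' (f ⁻¹' {σ}) : Set (sb f σ))
  den : ∀ σ, ∀ x ∈ sb f σ, Ctr {y | y ∈ f ⁻¹' {σ} ∧ x ≤ y}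
  vx : ∀ x ∈ Sk f 1, ∀ y, f x = f y → x = y
  off : ∀ i, Disjoint (G i) (Sk f 1)
  tri : ∀ x ∈ Y, x ∈ Sk f 3 → ∃ σ, f x ≤ σ ∧ σ.1.card = 3
  n2 : N2 f (⋃ j, G j)
  conn : ∀ i, Conn (G i ∩ Sk f 3)
  ne : ∀ i, (G i ∩ Sk f 2).Nonempty
  ex : ∀ i (ζ : Q → Q → ℤ), CocOn (G i) ζ → ExOn (G i ∩ Sk f 3) ζ → ExOn (G i) ζ
  m2 : ∀ m : Q → Q → ZMod 2, CocOn (Sk f 3) m → (∀ x y, y ∉ Y → m x y = 0) → ExOn (Sk f 3 ∩ Y) m

namespace Dt

variable {f : Q → Ch P} {Y : Set Q} {k : ℕ} {U G V : Fin k → Set Q} (h : Dt f Y U G V)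
  {i j : Fin k} {x y w : Q} {σ τ e : Ch P} {α ρ : Set Q}

local notation "F" => ⋃ j, G j

omit [PartialOrder Q] [Fintype Q] in
theorem memF (hx : x ∈ G i) : x ∈ F := Set.mem_iUnion.2 ⟨i, hx⟩

include h

theorem two (i : Fin k) : Two f Y (U i) (G i) (V i) := (h.fm.mem i).two
theorem lowG (i : Fin k) : IsLowerSet (G i) := (h.two i).bd.low
theorem lowF : IsLowerSet F := isLowerSet_iUnion h.lowG
theorem lowS (σ : Ch P) : IsLowerSet (sb f σ) := fun _ _ l k => (h.mono l).trans k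
theorem subY (hx : x ∈ G i) : x ∈ Y := (h.fm.mem i).sub hx
theorem subF (hx : x ∈ F) : x ∈ Y := let ⟨_, k⟩ := Set.mem_iUnion.1 hx; h.subY k
theorem offF (hx : x ∈ F) : x ∉ Sk f 1 :=
  let ⟨i, k⟩ := Set.mem_iUnion.1 hx; Set.disjoint_left.1 (h.off i) k

theorem eqG (h1 : x ∈ G i) (h2 : x ∈ G j) : i = j :=
  by_contra fun k => Set.disjoint_left.1 (h.fm.dj i j k) h1 h2

theorem cmG (hx : x ∈ G i) (hy : y ∈ F) (l : Cm x y) : y ∈ G i :=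
  let ⟨j, k⟩ := Set.mem_iUnion.1 hy
  l.elim (fun l => h.eqG hx (h.lowG j l k) ▸ k) fun l => h.lowG i l hx

theorem rchG {S : Set Q} (hx : x ∈ G i) (r : Rch (S ∩ F) x y) : y ∈ G i :=
  rch_cm r hx fun _ _ _ b l a => h.cmG a b.2 l

theorem cov (hx : x ∈ G i) (l : x ≤ y) (hy : y ∉ G i) : y ∈ U i ∨ y ∈ V i :=
  ((h.two i).cov y (h.upY l (h.subY hx))).imp id fun k => k.resolve_left hy

theorem nb (hx : x ∈ G i) (l : f x ≤ τ) (p : Prop) :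
    Ctr {y | y ∈ sb f τ \ F ∧ x ≤ y ∧ (y ∈ U i ↔ p)} := by
  by_cases hp : p
  · convert (h.two i).tv (Set.Iic τ) (isLowerSet_Iic τ) x ⟨hx, h.subY hx⟩ l using 1
    exact Set.ext fun y => ⟨fun k => ⟨k.2.2.2 hp, k.2.1, k.1.1⟩, fun k => ⟨⟨k.2.2, fun j =>
      (h.two i).bd.not (h.cmG hx j (Or.inl k.2.1)) k.1⟩, k.2.1, iff_of_true k.1 hp⟩⟩
  · convert (h.two i).tv' (Set.Iic τ) (isLowerSet_Iic τ) x ⟨hx, h.subY hx⟩ l using 1
    exact Set.ext fun y => ⟨fun k => ⟨(h.cov hx k.2.1 fun j => k.1.2 (memF j)).resolve_left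
      fun j => hp (k.2.2.1 j), k.2.1, k.1.1⟩, fun k => ⟨⟨k.2.2, fun j => Set.disjoint_left.1
        (h.two i).dg k.1 (h.cmG hx j (Or.inl k.2.1))⟩, k.2.1,
        iff_of_false (Set.disjoint_right.1 (h.two i).dj k.1) hp⟩⟩

/-- a curve separates the simplex -/
theorem cu (hα : IsCmp (sb f σ ∩ F) α) (hx : x ∈ α) (hi : x ∈ G i) : ∃ s, Cu (sb f σ) F α s ∧
    ∀ a ∈ α, ∀ y ∈ sb f σ \ F, a ≤ y → (s y ↔ y ∈ U i) := by
  have g : ∀ a ∈ α, a ∈ G i := fun a ha => h.rchG hi ((hα.conn x hx a ha).mono hα.sub)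
  have n : ∀ a ∈ α, a ∉ U i := fun a ha => (h.two i).bd.not (g a ha)
  obtain ⟨u, hu⟩ := (h.ctr σ).ex ℤ (fun a y => if a ∈ α ∧ y ∈ U i then 1 else 0)
    fun a ha y hy w _ l l' => by
      by_cases k : a ∈ α
      · by_cases k1 : y ∈ α
        · simp [k, k1, n y k1]
        by_cases k2 : y ∈ U i
        · simp [k, k1, k2, (h.two i).up l' k2]
        have := (h.cov (g a k) l fun j => k1 (hα.clopen k ⟨hy, memF j⟩ (Or.inl l))).resolve_left k2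
        simp [k, k1, k2, Set.disjoint_right.1 (h.two i).dj ((h.two i).up' l' this)]
      · have : y ∉ α := fun j => k (hα.clopen j ⟨ha, h.lowF l (hα.sub j).2⟩ (Or.inr l))
        simp [k, this]
  have e : ∀ a ∈ α, ∀ y ∈ sb f σ \ F, a ≤ y → (u y = u x + 1 ↔ y ∈ U i) := fun a ha y hy l => by
    have h1 := hu a (hα.sub ha).1 y hy.1 l
    have h2 := (hα.conn x hx a ha).eq (g := u) fun a ha b hb l => by
      have := hu a (hα.sub ha).1 b (hα.sub hb).1 l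
      simp only [n b hb, and_false, if_false] at this
      omega
    by_cases k : y ∈ U i <;> simp only [ha, k, and_self, and_false, if_true, if_false] at h1 <;>
      simp only [k, iff_true, iff_false] <;> omega
  refine ⟨fun y => u y = u x + 1, ⟨h.lowS σ, h.lowF, (h.ctr σ).conn, hα, fun y hy w hw l => ?_,
    fun a ha p => ?_⟩, e⟩
  · have := hu y hy.1 w hw.1 l
    simp only [hy.2, false_and, if_false] at this
    rw [show u y = u w by omega]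
  · convert h.nb (g a ha) (hα.sub ha).1 p using 1
    exact Set.ext fun y => and_congr_right fun k => and_congr_right fun l => by rw [e a ha y k l]

theorem cu' (hα : IsCmp (sb f σ ∩ F) α) : ∃ s, Cu (sb f σ) F α s :=
  let ⟨_, hx⟩ := hα.ne
  let ⟨_, hi⟩ := Set.mem_iUnion.1 (hα.sub hx).2
  (h.cu hα hx hi).imp fun _ => And.left

theorem tri3 (hσ : σ.1.card = 3) : Tri (sb f σ) F (Sk f 1) :=
  ⟨fun _ => h.cu', fun ρ α h1 h2 h3 ⟨_, hx⟩ => by_contra fun k => h.n2 σ ρ α ⟨hσ, h1, h2,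
    fun y hy _ a l => h3 ⟨a, y, hy, l⟩, let ⟨_, y, a, l⟩ := id hx; ⟨y, a, _, h3 hx, l⟩,
    fun y hy => Nat.lt_of_not_le fun j : (f y).1.card ≤ 1 => k ⟨y, hy, j⟩⟩, fun _ a b => h.offF b a⟩

theorem enS (hρ : IsCmp (sb f σ \ F) ρ) (hx : x ∈ En F ρ) : x ∈ sb f σ ∩ F :=
  ⟨(om_cmp (h.lowS σ) hρ ▸ hx :).1, hx.1⟩

theorem mem_reg (hρ : IsCmp (sb f σ \ F) ρ) (hx : x ∈ G i) (hy : y ∈ ρ) (l : x ≤ y)
    (hw : w ∈ sb f σ \ F) (l' : x ≤ w) : w ∈ ρ ↔ (w ∈ U i ↔ y ∈ U i) := by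
  have m := h.enS hρ ⟨memF hx, y, hy, l⟩
  have m' := mem_cmp_self m
  obtain ⟨s, c, e⟩ := h.cu (isCmp_cmp m) m' hx
  rw [← e x m' w hw l', ← e x m' y (hρ.sub hy) l]
  exact ⟨fun k => c.reg hρ k hy, fun k => ((c.fib hρ m' hy l m').symm.subset ⟨hw, l', k⟩).1⟩

theorem en_rch (hρ : IsCmp (sb f σ \ F) ρ) (hx : x ∈ En F ρ) (r : Rch (sb f σ ∩ F) x y) :
    y ∈ En F ρ :=
  have m := h.enS hρ hx
  let ⟨_, c⟩ := h.cu' (isCmp_cmp m)
  c.sub_en hρ (mem_cmp_self m) hx ⟨r.mem m, r⟩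

theorem upA (σ : Ch P) : Up (sb f σ) (f ⁻¹' {σ}) :=
  ⟨fun _ k => le_of_eq k, fun _ hx _ hy l => le_antisymm hy (hx.symm.trans_le (h.mono l))⟩

/-- a curve does not stay over one edge -/
theorem bd (hσ : σ.1.card = 3) (hα : IsCmp (sb f σ ∩ F) α) (he : e.1.card ≤ 2) :
    ∃ z ∈ α, f z ≠ σ ∧ ¬ f z ≤ e := by
  by_contra k
  push Not at k
  obtain ⟨s, c⟩ := h.cu' hα
  obtain ⟨w, h1, h2⟩ := exists_mem_notMem_of_card_lt_card (show e.1.card < σ.1.card by omega)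
  obtain ⟨b, hb⟩ := (h.ctr' (Ch.pt w)).ne
  have key : ∀ v ∈ sb f σ, v ∈ Sk f 1 → (s v ↔ s b) := fun v hv h3 => by
    have a1 : ({(f v).top, w} : Finset P) ⊆ σ.1 := insert_subset (hv (f v).top_mem) (by simpa)
    refine c.const (h.ctr (σ.sub _ (insert_nonempty _ _) a1)).conn (fun z hz => ⟨hz.trans a1,
      fun j => h.offF (hα.sub j).2 ?_⟩) ?_ ?_
    · have a2 := (card_le_card hz).trans card_le_two
      have a3 := k z j fun e => by rw [e] at a2; omega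
      refine (card_le_card (t := {(f v).top}) fun t ht => ?_).trans (card_singleton _).le
      rcases mem_insert.1 (hz ht) with e | e
      exacts [mem_singleton.2 e, absurd (mem_singleton.1 e ▸ a3 ht) h2]
    · exact (Sf30.eq_pt h3).trans_le (Ch.pt_le.2 (mem_insert_self _ _))
    · exact hb.trans_le (Ch.pt_le.2 (mem_insert_of_mem (mem_singleton_self _)))
  obtain ⟨v, v1, v2⟩ := (h.tri3 hσ).vtx c True
  obtain ⟨v', v3, v4⟩ := (h.tri3 hσ).vtx c False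
  exact v3.2.1 ((key v' v3.1.1 v4).2 ((key v v1.1.1 v2).1 (v1.2.2 trivial)))

theorem bd' (hσ : σ.1.card = 3) (hα : IsCmp (sb f σ ∩ F) α) (hx : x ∈ α) :
    ∃ z, z ∉ f ⁻¹' {σ} ∧ Rch α x z :=
  let ⟨z, a, b, _⟩ := h.bd hσ hα (e := Ch.pt σ.top) (by simp); ⟨z, b, hα.conn x hx z a⟩

/-- two points of a curve are not over one edge -/
theorem notwo (hσ : σ.1.card = 3) (he : e.1.card ≤ 2) (hx : x ∈ sb f σ ∩ F) (h1 : f x ≤ e)
    (h2 : f y ≤ e) (r : Rch (sb f σ ∩ F) x y) : x = y := by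
  by_contra ne
  have hα := isCmp_cmp hx
  obtain ⟨s, c⟩ := h.cu' hα
  obtain ⟨z, z1, z2, z3⟩ := h.bd hσ hα he
  have n : ∀ a ∈ cmp (sb f σ ∩ F) x, ∃ y ∈ Os (sb f σ) (cmp (sb f σ ∩ F) x) s False ∩ f ⁻¹' {σ},
      a ≤ y := fun a ha => by
    obtain ⟨y, a1, a2⟩ := (c.fibO False ha).ne
    obtain ⟨w, a3, a4⟩ := (h.den σ y a1.1.1).ne
    exact ⟨w, ⟨c.os_up a1 (le_of_eq a3) a4, a3⟩, a2.trans a4⟩
  have m : Os (sb f σ) (cmp (sb f σ ∩ F) x) s False ∩ f ⁻¹' {σ} ⊆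
      f ⁻¹' {σ} \ Os (sb f σ) (cmp (sb f σ ∩ F) x) s True :=
    fun _ k => ⟨k.2, fun j => k.1.2.1 (j.2.2 trivial)⟩
  have x0 := mem_cmp_self hx
  have := (disc (h.mf σ 2 hσ) (h.ctr' σ) (h.upA σ) (h.den σ) (c.up True) (fun a ha k => by
      by_cases j : a ∈ cmp (sb f σ ∩ F) x
      · exact (c.fibO True j).conn
      · exact fun y hy => absurd ((c.om True).subset ⟨ha, k, y, hy⟩) j)
    (fun a ha => by rw [c.om True] at ha ⊢; exact h.bd' hσ hα ha) (c.connO True)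
    (let ⟨y, a, _⟩ := (c.fibO True x0).ne; ⟨y, a⟩) (let ⟨y, a, _⟩ := n x x0; ⟨y, m a⟩)).2
    (by
      have cn := ((c.up False).ws (h.den σ) (h.upA σ).1).conn_iff.2 (c.connO False)
      have k : ∀ a ∈ f ⁻¹' {σ} \ Os (sb f σ) (cmp (sb f σ ∩ F) x) s True,
          ∃ y ∈ Os (sb f σ) (cmp (sb f σ ∩ F) x) s False ∩ f ⁻¹' {σ}, a ≤ y := fun a ha => by
        by_cases j : a ∈ cmp (sb f σ ∩ F) x
        · exact n a j
        · exact ⟨a, ⟨⟨⟨le_of_eq ha.1, j⟩, iff_false_intro fun i =>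
            ha.2 ⟨⟨le_of_eq ha.1, j⟩, iff_true_intro i⟩⟩, ha.1⟩, le_rfl⟩
      intro a ha b hb
      obtain ⟨a', a1, a2⟩ := k a ha
      obtain ⟨b', b1, b2⟩ := k b hb
      exact (Rch.of_cm ha (m a1) (Or.inl a2)).trans
        (((cn a' a1 b' b1).mono m).trans (Rch.of_cm (m b1) hb (Or.inr b2)))) {x, y, z}
    fun p hp => by
      have : p ∈ cmp (sb f σ ∩ F) x ∧ f p ≠ σ := by
        have u : ∀ t, f t ≤ e → f t ≠ σ := fun t a b => by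
          have := card_le_card a; rw [b] at this; omega
        simp only [mem_insert, mem_singleton] at hp
        rcases hp with rfl | rfl | rfl
        exacts [⟨x0, u _ h1⟩, ⟨⟨r.mem hx, r⟩, u _ h2⟩, ⟨z1, z2⟩]
      exact ⟨⟨this.1.1.1, this.2⟩, (c.fibO True this.1).ne,
        let ⟨y, a, b⟩ := n p this.1; ⟨y, m a, b⟩⟩
  rw [card_eq_three.2 ⟨x, y, z, ne, fun j => z3 (j ▸ h1), fun j => z3 (j ▸ h2), rfl⟩] at this
  omega

/-- a closed region is a disc -/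
theorem ctrS (hσ : σ.1.card = 3) (hρ : IsCmp (sb f σ \ F) ρ) (hx : x ∈ En F ρ) :
    Ctr (ρ ∪ En F ρ) := by
  have fb : ∀ a ∈ En F ρ, Ctr {w | w ∈ ρ ∧ a ≤ w} := fun a ha =>
    have m := h.enS hρ ha
    let ⟨_, c⟩ := h.cu' (isCmp_cmp m)
    c.ctr_fib hρ (mem_cmp_self m) ha (mem_cmp_self m)
  refine (WS.of_ge (f := id) (A := ρ) (fun _ k => Or.inl k) (fun _ _ _ _ l => l) fun a ha =>
    ha.elim (fun k => Kh11.sctr_min (m := a) ⟨k, le_rfl⟩ fun _ j => j.2) (fb a)).ctr_iff.1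
    (disc (h.mf σ 2 hσ) (h.ctr' σ) (h.upA σ) (h.den σ)
      ⟨fun _ k => (hρ.sub k).1, fun _ a _ b l => cmp_up h.lowF hρ a b l⟩ (fun a ha k y hy =>
        (fb a ((om_cmp (h.lowS σ) hρ).subset ⟨ha, k, y, hy⟩)).conn y hy) (fun a ha => ?_)
      hρ.conn hρ.ne ?_).1
  · rw [om_cmp (h.lowS σ) hρ] at ha ⊢
    have m := h.enS hρ ha
    obtain ⟨z, a1, a2⟩ := h.bd' hσ (isCmp_cmp m) (mem_cmp_self m)
    exact ⟨z, a1, a2.mono fun _ k => h.en_rch hρ ha k.2⟩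
  · obtain ⟨a, y, b, l⟩ := id hx
    obtain ⟨i, hi⟩ := Set.mem_iUnion.1 a
    obtain ⟨w, c1, c2, c3⟩ := (h.nb hi (h.enS hρ hx).1 (y ∉ U i)).ne
    obtain ⟨v, c4, c5⟩ := (h.den σ w c1.1).ne
    exact ⟨v, c4, fun j => iff_not_self
      (((h.mem_reg hρ hi b l c1 c2).1 (hρ.clopen j c1 (Or.inr c5))).symm.trans c3)⟩

/-- the segment at an end of a region without vertex -/
theorem seg (hρ : IsCmp (sb f σ \ F) ρ) (hv : ∀ y ∈ ρ, y ∉ Sk f 1) (hx : x ∈ En F ρ)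
    (h2 : x ∈ Sk f 2) : ∃ s, IsCmp (sb f (f x) \ F) s ∧ s ⊆ ρ ∧ x ∈ En F s ∧
      ∃ x' ∈ En F s, x' ≠ x := by
  obtain ⟨a, y, b, l⟩ := id hx
  obtain ⟨i, hi⟩ := Set.mem_iUnion.1 a
  obtain ⟨w, c1, c2, c3⟩ := (h.nb hi le_rfl (y ∈ U i)).ne
  have m : sb f (f x) \ F ⊆ sb f σ \ F := fun _ k =>
    ⟨le_trans (α := Ch P) k.1 (h.enS hρ hx).1, k.2⟩
  have hs := isCmp_cmp c1
  have c4 := sub_cmp hρ hs.conn (hs.sub.trans m) (mem_cmp_self c1)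
    ((h.mem_reg hρ hi b l (m c1) c2).2 c3)
  have c5 : x ∈ En F (cmp (sb f (f x) \ F) w) := ⟨a, w, mem_cmp_self c1, c2⟩
  have c6 := h.enS hs c5
  obtain ⟨s, c⟩ := h.cu' (isCmp_cmp c6)
  refine ⟨_, hs, c4, c5, om_cmp (h.lowS _) hs ▸ seg1 (h.mf (f x) 1
    (le_antisymm h2 (Nat.lt_of_not_le (h.offF a)))) (fun t ht => Ch.ext (eq_of_subset_of_card_le ht.1.1
      (le_trans h2 (Nat.lt_of_not_le (hv t (c4 ht)))))) ⟨fun _ k => k.1.1, fun _ a _ b l =>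
        cmp_up h.lowF hs a b l⟩ ((om_cmp (h.lowS _) hs).symm ▸ c5)
    (c.ctr_fib hs (mem_cmp_self c6) c5 (mem_cmp_self c6)).conn⟩

end Dt

end Crest.Agent.X212.Kc37
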