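import Crest.Agent.X212.Kc37.Cur

/-!
# X212 / Kc37 (helper37): KH-COUNT, regions of a disc and of a segment
-/

set_option autoImplicit false
set_option linter.unusedSectionVars false

open Finset Classical

noncomputable section

namespace Crest.Agent.X212.Kc37

open Hp13 Sf30
open Alg36 (Om mix)
open Kh11 (WS)

section
variable {P : Type} [PartialOrder P] [Fintype P] {A R : Set P}

theorem col_up : Col A (R ∩ A) (A \ R) :=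
  ⟨by rw [Set.inter_comm, Set.inter_union_sdiff], Set.disjoint_left.2 fun _ a b => b.2 a.1⟩

theorem noC (hA : IsUpperSet A) (hR : IsUpperSet R) (h1 : ∀ x, x ∉ R → Conn {y | y ∈ R ∧ x ≤ y})
    (h2 : ∀ x ∈ Om R, ∃ p, p ∉ A ∧ Rch (Om R) x p) : NoC A (R ∩ A) (A \ R) := by
  have i2 : ∀ x y (l : x ≤ y), x ∈ A \ R → y ∈ R → Ch.pr x y l ∈ If (R ∩ A) (A \ R) :=
    fun x y l a b => ⟨⟨y, by simp, b, hA l a.1⟩, x, by simp, a⟩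
  have t1 : ∀ (x y w : P) (l : x ≤ y) (l' : y ≤ w), Ch.pr x y l ≤ Ch.tr x y w l l' ∧
      Ch.pr x w (l.trans l') ≤ Ch.tr x y w l l' ∧ Ch.pr y w l' ≤ Ch.tr x y w l l' :=
    fun x y w l l' => by
      refine ⟨?_, ?_, ?_⟩ <;> exact Ch.pr_le _ (Ch.mem_tr.2 (by simp)) (Ch.mem_tr.2 (by simp))
  have via : ∀ {c d e : Ch P}, Circ A (R ∩ A) (A \ R) c → c ≤ d → e ≤ d →
      e ∈ If (R ∩ A) (A \ R) → Circ A (R ∩ A) (A \ R) e := fun k l l' j =>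
    (k.cl (if_upper l k.1) (Or.inl l)).cl j (Or.inr l')
  have all : ∀ x ∈ A \ R, ∀ y ∈ R, ∀ l : x ≤ y, Circ A (R ∩ A) (A \ R) (Ch.pr x y l) →
      ∀ w ∈ R, ∀ l : x ≤ w, Circ A (R ∩ A) (A \ R) (Ch.pr x w l) := fun x hx y hy l k w hw l' =>
    (h1 x hx.2 y ⟨hy, l⟩ w ⟨hw, l'⟩).ind
      (p := fun t => ∀ l : x ≤ t, Circ A (R ∩ A) (A \ R) (Ch.pr x t l)) (fun _ => k)
      (fun a ha b hb e => ⟨fun j _ => via (j ha.2) (t1 x a b ha.2 e).1 (t1 x a b ha.2 e).2.1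
        (i2 _ _ _ hx hb.1), fun j _ => via (j hb.2) (t1 x a b ha.2 e).2.1 (t1 x a b ha.2 e).1
        (i2 _ _ _ hx ha.1)⟩) l'
  intro c hc
  obtain ⟨⟨y, a1, hy⟩, x, a2, hx⟩ := hc.1
  have l := (c.cm a2 a1).resolve_right fun j => hx.2 (hR j hy.1)
  obtain ⟨p, h3, r⟩ := h2 x ⟨hx.2, y, hy.1, l⟩
  refine h3 (r.ind (p := fun x => x ∈ A ∧ ∀ w ∈ R, ∀ l : x ≤ w,
    Circ A (R ∩ A) (A \ R) (Ch.pr x w l)) ⟨hx.1, all x hx y hy.1 l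
      (hc.cl (i2 _ _ _ hx hy.1) (Or.inr (Ch.pr_le l a2 a1)))⟩ fun a ha b hb e => ?_).1
  obtain ⟨b1, w, hw, l⟩ := hb
  refine ⟨fun k => ?_, fun k => ?_⟩
  · have := hA e k.1
    exact ⟨this, all b ⟨this, b1⟩ w hw l (via (k.2 w hw _) (t1 a b w e l).2.1 (t1 a b w e l).2.2
      (i2 _ _ _ ⟨this, b1⟩ hw))⟩
  · have c1 := (k.2 w hw l).cl (if_upper (t1 a b w e l).2.2 (k.2 w hw l).1)
      (Or.inl (t1 a b w e l).2.2)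
    have : a ∈ A := by_contra fun j => c1.2 _ Rch.rfl ⟨a, Ch.mem_tr.2 (by simp), j⟩
    exact ⟨this, all a ⟨this, ha.1⟩ w hw _ (c1.cl (i2 _ _ _ ⟨this, ha.1⟩ hw)
      (Or.inr (t1 a b w e l).2.1))⟩

theorem cs_conn {E : Set P} (h : Conn E) : (cs E).card ≤ 1 := card_le_one.2 fun _ a _ b => by
  obtain ⟨x, hx, rfl⟩ := mem_cs.1 a
  obtain ⟨y, hy, rfl⟩ := mem_cs.1 b
  exact cmp_eq (h x hx y hy)

theorem disc0 (hM : Mf 2 A) (hc : Ctr A) (hA : IsUpperSet A) (hR : IsUpperSet R)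
    (h1 : ∀ x, x ∉ R → Conn {y | y ∈ R ∧ x ≤ y}) (h2 : ∀ x ∈ Om R, ∃ p, p ∉ A ∧ Rch (Om R) x p)
    (c : Conn (R ∩ A)) (n : (R ∩ A).Nonempty) (n' : (A \ R).Nonempty) : Ctr (R ∩ A) ∧
      (Conn (A \ R) → ∀ T : Finset P, (∀ p ∈ T, p ∉ A ∧ ∃ x ∈ A \ R, ∃ y ∈ R, p ≤ x ∧ x ≤ y) →
        T.card ≤ 2) := by
  obtain ⟨t1, t2, t3⟩ := tree hM col_up hc.conn n n' hc.eu.ge (noC hA hR h1 h2)
  have r : Reg (R ∩ A) (A \ R) (R ∩ A) := Or.inl (isCmp_of subset_rfl n c fun _ _ _ k _ => k)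
  refine ⟨?_, fun c' T hT => ?_⟩
  · obtain ⟨d, ⟨⟨y, a1, hy⟩, x, a2, hx⟩, -⟩ := r.exists_if col_up hc.conn n n'
    exact Alg36.Mf.ctr_of_eu hM Set.inter_subset_right c
      (esc_of Set.inter_subset_right c hy (fun j => hx.2 j.1) (d.cm a1 a2)) (t1 _ r).ge
  have a1 := card_union_le (cs (R ∩ A)) (cs (A \ R))
  have a2 := cs_conn c
  have a3 := cs_conn c'
  rcases T.eq_empty_or_nonempty with rfl | ⟨p, hp⟩
  · simp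
  choose! n1 x hx y hy l l' using hT
  have i : ∀ p (k : p ∈ T), Ch.tr p (x p) (y p) (l p k) (l' p k) ∈ If (R ∩ A) (A \ R) :=
    fun p k => ⟨⟨y p, Ch.mem_tr.2 (by simp), hy p k, hA (l' p k) (hx p k).1⟩, x p,
      Ch.mem_tr.2 (by simp), hx p k⟩
  rw [← (t3 _ (isCmp_cmp (i p hp))).2, en]
  refine card_le_card_of_surjOn Ch.bot fun q hq => ⟨_, mem_coe.2 (mem_filter.2 ⟨mem_univ _, ?_,
    q, Ch.mem_tr.2 (Or.inl rfl), n1 q hq⟩), Ch.bot_tr (l q hq) (l' q hq)⟩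
  rw [card_le_one.1 (by omega) _ (mem_cs.2 (isCmp_cmp (i p hp))) _
    (mem_cs.2 (isCmp_cmp (i q hq)))]
  exact mem_cmp_self (i q hq)

/-- a segment has a second end -/
theorem seg0 (hM : Mf 1 A) (hs : R ⊆ A) (hR : IsUpperSet R) {x : P} (hx : x ∈ Om R)
    (hc : Conn {y | y ∈ R ∧ x ≤ y}) : ∃ x' ∈ Om R, x' ≠ x := by
  by_contra k
  push Not at k
  obtain ⟨h1, y, hy, l⟩ := hx
  have ne : ∀ w ∈ R, x ≠ w := fun w a b => h1 (b ▸ a)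
  have u : ∀ w ∈ R, x ≤ w → y = w := fun w hw l' => (hc y ⟨hy, l⟩ w ⟨hw, l'⟩).eq (g := id)
    fun a ha b hb e => by_contra fun j => by
      have := hM.card_le (Ch.tr x a b ha.2 e) ⟨a, Ch.mem_tr.2 (by simp), hs ha.1⟩
      have := two_lt_card.2 ⟨x, Ch.mem_tr.2 (by simp), a, Ch.mem_tr.2 (by simp), b,
        (Ch.mem_tr (h1 := ha.2) (h2 := e)).2 (by simp), ne a ha.1, ne b hb.1, j⟩
      omega
  have := Alg36.Mf.sum_mix (hM.mono hs)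
  rw [show univ.filter (· ∈ mix R) = {Ch.pr x y l} from eq_singleton_iff_unique_mem.2
    ⟨mem_filter.2 ⟨mem_univ _, ⟨y, by simp, hy⟩, x, by simp, h1⟩, fun c hc => ?_⟩, sum_singleton,
    Ch.sg, Ch.pr_val, card_pair (ne y hy)] at this
  · omega
  obtain ⟨-, ⟨w, a1, hw⟩, v, a2, hv⟩ := mem_filter.1 hc
  have l' := (c.cm a2 a1).resolve_right fun j => hv (hR j hw)
  obtain rfl := k v ⟨hv, w, hw, l'⟩
  obtain rfl := u w hw l'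
  refine (Ch.ext (eq_of_subset_of_card_le (Ch.pr_le l a2 a1) ?_)).symm
  rw [Ch.pr_val, card_pair (ne y hy)]
  exact hM.card_le c ⟨y, a1, hs hy⟩

end

variable {Q : Type} [PartialOrder Q] [Fintype Q] {S A R E : Set Q}

theorem ws_val (h : E ⊆ S) : WS (Subtype.val ⁻¹' E : Set S) E Subtype.val :=
  WS.of_iso (fun _ k => k) (fun y k => ⟨⟨y, h k⟩, k, rfl⟩) fun _ _ _ _ => Iff.rfl

/-- upper in `S` -/
def Up (S R : Set Q) : Prop := R ⊆ S ∧ ∀ x ∈ R, ∀ y ∈ S, x ≤ y → y ∈ R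

theorem Up.val (h : Up S R) : IsUpperSet (Subtype.val ⁻¹' R : Set S) :=
  fun x y l k => h.2 x.1 k y.1 y.2 l

theorem om_val (h : R ⊆ S) : Om (Subtype.val ⁻¹' R : Set S) = Subtype.val ⁻¹' (S ∩ Om R) :=
  Set.ext fun x => ⟨fun ⟨a, y, b, c⟩ => ⟨x.2, a, y.1, b, c⟩, fun ⟨_, a, y, b, c⟩ =>
    ⟨a, ⟨y, h b⟩, b, c⟩⟩

theorem Up.ws (hR : Up S R) (hd : ∀ x ∈ S, Ctr {y | y ∈ A ∧ x ≤ y}) (hA : A ⊆ S) :
    WS (R ∩ A) R id := WS.of_ge (fun _ k => k.1) (fun _ _ _ _ l => l) fun x hx => by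
  convert hd x (hR.1 hx) using 1
  exact Set.ext fun y => ⟨fun k => ⟨k.1.2, k.2⟩, fun k => ⟨⟨hR.2 x hx y (hA k.1) k.2, k.1⟩, k.2⟩⟩

theorem disc (hM : Mf 2 (Subtype.val ⁻¹' A : Set S)) (hc : Ctr A) (hA : Up S A)
    (hd : ∀ x ∈ S, Ctr {y | y ∈ A ∧ x ≤ y}) (hR : Up S R)
    (h1 : ∀ x ∈ S, x ∉ R → Conn {y | y ∈ R ∧ x ≤ y})
    (h2 : ∀ x ∈ S ∩ Om R, ∃ p, p ∉ A ∧ Rch (S ∩ Om R) x p) (c : Conn R) (n : R.Nonempty)
    (n' : (A \ R).Nonempty) : Ctr R ∧ (Conn (A \ R) → ∀ T : Finset Q,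
      (∀ p ∈ T, p ∈ S \ A ∧ (∃ y ∈ R, p ≤ y) ∧ ∃ y ∈ A \ R, p ≤ y) → T.card ≤ 2) := by
  have w := (ws_val (S := S) (Set.inter_subset_right.trans hA.1)).comp (hR.ws hd hA.1)
  have w' := ws_val (S := S) (E := A \ R) (Set.sdiff_subset.trans hA.1)
  obtain ⟨d1, d2⟩ := disc0 (R := Subtype.val ⁻¹' R) hM ((ws_val hA.1).ctr_iff.2 hc) hA.val hR.val
    (fun x hx => (ws_val (E := {y | y ∈ R ∧ x.1 ≤ y}) fun _ k => hR.1 k.1).conn_iff.2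
      (h1 x.1 x.2 hx)) (fun x hx => by
        rw [om_val hR.1] at hx ⊢
        obtain ⟨p, a, b⟩ := h2 x.1 hx
        exact ⟨⟨p, (b.mem hx).1⟩, a, ((ws_val Set.inter_subset_left).rch_iff hx (b.mem hx)).2 b⟩)
    (w.conn_iff.2 c) (w.ne_iff.2 n) (w'.ne_iff.2 n')
  refine ⟨w.ctr_iff.1 d1, fun c' T hT => ?_⟩
  have := d2 (w'.conn_iff.2 c') (T.subtype (· ∈ S)) fun p hp => by
    obtain ⟨a, ⟨y, b1, b2⟩, x, b3, b4⟩ := hT p.1 (mem_subtype.1 hp)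
    obtain ⟨y', b5, b6⟩ := (hd y (hR.1 b1)).ne
    refine ⟨a.2, by_contra fun j => b3.2 (((hd p.1 p.2).conn y' ⟨b5, b2.trans b6⟩ x ⟨b3.1, b4⟩).ind
      (hR.2 y b1 y' (hA.1 b5) b6) fun u hu v hv e => ⟨fun k => hR.2 u k v (hA.1 hv.1) e,
        fun k => by_contra fun i => j ⟨⟨u, hA.1 hu.1⟩, ⟨hu.1, i⟩, ⟨v, hA.1 hv.1⟩, k, hu.2, e⟩⟩)⟩
  rwa [card_subtype, filter_true_of_mem fun p hp => (hT p hp).1.1] at this

theorem seg1 (hM : Mf 1 (Subtype.val ⁻¹' A : Set S)) (hs : R ⊆ A) (hR : Up S R) {x : Q}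
    (hx : x ∈ S ∩ Om R) (hc : Conn {y | y ∈ R ∧ x ≤ y}) : ∃ x' ∈ S ∩ Om R, x' ≠ x := by
  obtain ⟨x', a, b⟩ := seg0 (R := Subtype.val ⁻¹' R) hM (fun _ k => hs k) hR.val (x := ⟨x, hx.1⟩)
    (om_val hR.1 ▸ hx)
    ((ws_val (E := {y | y ∈ R ∧ x ≤ y}) fun _ k => hR.1 k.1).conn_iff.2 hc)
  rw [om_val hR.1] at a
  exact ⟨x'.1, a, fun e => b (Subtype.ext e)⟩

end Crest.Agent.X212.Kc37
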